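import Vale.Agent.P167.H199.Chain

/-!
# P167, general `q`, block P2S (Z-GEO), Z4: a chain of balls off the enlarged polygon, from a point of
any side to infinity (copy of helper199's `chain_ex`)
-/

namespace Vale.Agent.P167.H662.Z

open Finset Filter Topology
open Vale.Agent.P167.E6 (IsPolygon Encloses dir face edges)
open Vale.Agent.P167.E2 (mem_edges ro ro_spec)
open Vale.Agent.P167.H531 (fo' ext_const fo_not_mem fi_mem)
open Vale.Agent.P167.H825 (Marks pdir dirOf bsite enl)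
open Vale.Agent.P167.H199

variable {l : ℕ} {p : ZMod l → ℤ × ℤ} {S : Finset (ℤ × ℤ)}

/-- **(Z4) The chain from a point of the side `is` to infinity, off the enlarged polygon.** -/
theorem z4 (hp : IsPolygon p) (hS : Encloses p S) {tp : ℝ} (h0 : 0 < tp) (h1 : tp < 1)
    (is : ℕ) (K i₀ : ℕ) (R2 : ℝ) : ∃ ε₀ : ℝ, 0 < ε₀ ∧ ∀ ε : ℝ, 0 < ε → ε < ε₀ → ∃ m : ℕ, i₀ ≤ m ∧
      ∀ᶠ n : ℕ in atTop, ∃ z : ℕ → ℤ × ℤ,
        (∀ i ≤ i₀, z i = (n : ℤ) • p (is : ZMod l) + (⌊tp * n⌋₊ : ℤ) • dir (pdir p is) +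
          ((K + 2 + i : ℕ) * (⌊ε * n⌋₊ : ℤ)) • dir (pdir p is - 1)) ∧
        (∀ i < m, nm (z (i + 1) - z i) ≤ ⌊ε * n⌋₊) ∧
        (∀ i ≤ m, ∀ v, nm (v - z i) ≤ (K + 1 : ℕ) * (⌊ε * n⌋₊ : ℤ) → v ∉ enl S n) ∧
        R2 * n < nm (z m) := by
  set c := min tp (1 - tp) with hc
  have hc0 : 0 < c := lt_min h0 (by linarith)
  have hc1 : c ≤ 1 / 2 := by
    rcases le_total tp (1 / 2) with h | h
    · exact (min_le_left _ _).trans h
    · exact (min_le_right _ _).trans (by linarith)
  refine ⟨c / (8 * (K + 3 + i₀)), by positivity, fun ε hε hε' => ?_⟩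
  have hεc : 8 * (K + 3 + i₀) * ε < c := by
    rw [lt_div_iff₀ (by positivity)] at hε'
    linarith
  obtain ⟨J, hJ⟩ := exists_nat_ge (2 / ε)
  have hJε : 2 ≤ J * ε := by rwa [div_le_iff₀ hε] at hJ
  obtain ⟨f, hf, hfN⟩ := ext_far hp hS ((is : ℕ) : ZMod l) (⌈|R2|⌉ + 1)
  obtain ⟨m', hm'⟩ := chn_faces hf J
  have hfo : fo' p ((is : ℕ) : ZMod l) = face (p ((is : ℕ) : ZMod l)) (pdir p is - 1) := by
    unfold fo'
    rw [ro_eq hp]
  have hfoS := fo_not_mem hp hS ((is : ℕ) : ZMod l)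
  have hp0 : p ((is : ℕ) : ZMod l) = p (is : ZMod l) := rfl
  rw [hp0] at hfo
  refine ⟨(J + i₀) + (J + m'), by omega, ?_⟩
  filter_upwards [(tendsto_natCast_atTop_atTop (R := ℝ)).eventually_ge_atTop (2 / ε),
    (tendsto_natCast_atTop_atTop (R := ℝ)).eventually_ge_atTop (16 / c),
    eventually_gt_atTop 0] with n hn1 hn2 hn0
  have hn0' : (0 : ℝ) < n := by exact_mod_cast hn0
  rw [div_le_iff₀ hε] at hn1
  rw [div_le_iff₀ hc0] at hn2
  have f1 := Nat.lt_floor_add_one (ε * n)
  have f2 := Nat.floor_le (show 0 ≤ ε * n by positivity)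
  have t1 := Nat.lt_floor_add_one (tp * n)
  have t2 := Nat.floor_le (show 0 ≤ tp * n by positivity)
  generalize hr : (⌊ε * n⌋₊ : ℕ) = r at *
  generalize hT : (⌊tp * n⌋₊ : ℕ) = T at *
  have hJr : (n : ℤ) ≤ J * (r : ℤ) := by
    have : (n : ℝ) ≤ J * r := by
      have h2 : ε * n / 2 ≤ r := by linarith
      have h3 : (J : ℝ) * (ε * n / 2) ≤ J * r := mul_le_mul_of_nonneg_left h2 (Nat.cast_nonneg _)
      nlinarith
    exact_mod_cast this
  have hKr : 8 * ((K + 3 + i₀ : ℕ) : ℝ) * r ≤ c * n := by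
    push_cast
    have h2 : 8 * ((K : ℝ) + 3 + i₀) * r ≤ 8 * ((K : ℝ) + 3 + i₀) * (ε * n) :=
      mul_le_mul_of_nonneg_left f2 (by positivity)
    have h3 : 8 * ((K : ℝ) + 3 + i₀) * ε * n ≤ c * n :=
      mul_le_mul_of_nonneg_right hεc.le hn0'.le
    linarith
  have hTc : c * n - 1 ≤ T ∧ (T : ℝ) ≤ n - c * n := by
    have h2 : c * n ≤ tp * n := mul_le_mul_of_nonneg_right (min_le_left _ _) hn0'.le
    have h3 : c * n ≤ (1 - tp) * n := mul_le_mul_of_nonneg_right (min_le_right _ _) hn0'.le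
    constructor <;> linarith
  -- everything in integers
  set ρ : ℤ := ((K + 1 : ℕ) : ℤ) * r with hρ
  have hρ0 : 0 ≤ ρ := by positivity
  have hr1 : (1 : ℤ) ≤ r := by
    have : (0 : ℝ) < r := by nlinarith
    have : 0 < r := by exact_mod_cast this
    omega
  -- the numbers
  have hbig : 8 * (((K + 3 + i₀ : ℕ) : ℤ) * r) ≤ T + 1 := by
    have : 8 * (((K + 3 + i₀ : ℕ) : ℝ) * r) ≤ T + 1 := by linarith [hTc.1]
    exact_mod_cast this
  have hbig2 : 8 * (((K + 3 + i₀ : ℕ) : ℤ) * r) ≤ n - T := by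
    have : 8 * (((K + 3 + i₀ : ℕ) : ℝ) * r) ≤ n - T := by linarith [hTc.2]
    have h2 : 8 * (((K + 3 + i₀ : ℕ) : ℝ) * r) + T ≤ n := by linarith
    have h3 : 8 * (((K + 3 + i₀ : ℕ) : ℤ) * r) + T ≤ n := by exact_mod_cast h2
    linarith
  have hn16 : (16 : ℤ) ≤ T + 1 := by
    have : (16 : ℝ) ≤ T + 1 := by linarith [hTc.1]
    exact_mod_cast this
  have hn16' : (16 : ℤ) ≤ n - T := by
    have : (16 : ℝ) + T ≤ n := by linarith [hTc.2]
    have h3 : (16 : ℤ) + T ≤ n := by exact_mod_cast this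
    linarith
  have e1 : ((K + 3 + i₀ : ℕ) : ℤ) * r = ρ + ((2 + i₀ : ℕ) : ℤ) * r := by
    rw [hρ]; push_cast; ring
  have e2 : ((2 + i₀ : ℕ) : ℤ) * r = 2 * r + (i₀ : ℤ) * r := by push_cast; ring
  have e3 : ((K + 2 : ℕ) : ℤ) * r = ρ + r := by rw [hρ]; push_cast; ring
  have hi0 : (0 : ℤ) ≤ (i₀ : ℤ) * r := by positivity
  rw [e1, e2] at hbig hbig2
  -- the centre of the first block
  obtain ⟨T', H, c1, c2, c3, c4, c5⟩ := cen_start n (p (is : ZMod l)) (pdir p is)
  have hgood : ∀ τ h : ℤ, ρ + 1 ≤ τ → τ + ρ + 1 ≤ n → ρ + 1 ≤ h → h + ρ + 1 ≤ n →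
      Gd S n ρ ((n : ℤ) • p (is : ZMod l) + τ • dir (pdir p is) + h • dir (pdir p is - 1)) := by
    intro τ h q1 q2 q3 q4 v hv
    refine (start_blk (p (is : ZMod l)) (pdir p is) q1 q2 q3 q4 hv).notMem ?_
    rw [← hfo]
    exact hfoS
  -- second part: tangential
  have B : Chn (Gd S n ρ) r J
      ((n : ℤ) • p (is : ZMod l) + (T : ℤ) • dir (pdir p is) + H • dir (pdir p is - 1))
      (cen n (face (p (is : ZMod l)) (pdir p is - 1))) := by
    rw [c5]
    rcases le_total (T : ℤ) T' with h | h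
    · have e : (n : ℤ) • p (is : ZMod l) + T' • dir (pdir p is) + H • dir (pdir p is - 1) =
          ((n : ℤ) • p (is : ZMod l) + (T : ℤ) • dir (pdir p is) + H • dir (pdir p is - 1)) +
            (T' - T) • dir (pdir p is) := by module
      rw [e]
      refine Chn.line (by omega) (nm_dir _) (by omega) (by omega) fun s hs0 hs1 => ?_
      have e' : (n : ℤ) • p (is : ZMod l) + (T : ℤ) • dir (pdir p is) + H • dir (pdir p is - 1) +
          s • dir (pdir p is) =
          (n : ℤ) • p (is : ZMod l) + (T + s) • dir (pdir p is) + H • dir (pdir p is - 1) := by module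
      rw [e']
      exact hgood _ _ (by omega) (by omega) (by omega) (by omega)
    · have e : (n : ℤ) • p (is : ZMod l) + T' • dir (pdir p is) + H • dir (pdir p is - 1) =
          ((n : ℤ) • p (is : ZMod l) + (T : ℤ) • dir (pdir p is) + H • dir (pdir p is - 1)) +
            (T - T') • (- dir (pdir p is)) := by module
      rw [e]
      refine Chn.line (by omega) (by rw [nm_neg]; exact nm_dir _) (by omega) (by omega)
        fun s hs0 hs1 => ?_
      have e' : (n : ℤ) • p (is : ZMod l) + (T : ℤ) • dir (pdir p is) + H • dir (pdir p is - 1) +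
          s • (- dir (pdir p is)) =
          (n : ℤ) • p (is : ZMod l) + (T - s) • dir (pdir p is) + H • dir (pdir p is - 1) := by module
      rw [e']
      exact hgood _ _ (by omega) (by omega) (by omega) (by omega)
  have C := hm' n r ρ (by omega) hρ0 (by omega) hJr hfoS
  rw [hfo] at C
  obtain ⟨w, w0, w1, w2, w3⟩ := B.trans C
  -- first part: normal
  set t : ℤ := H - ((K + 2 : ℕ) : ℤ) * r with ht
  have ht0 : (i₀ : ℤ) * r ≤ t := by rw [ht, e3]; omega
  set a : ℤ × ℤ := (n : ℤ) • p (is : ZMod l) + (T : ℤ) • dir (pdir p is) +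
    (((K + 2 : ℕ) : ℤ) * r) • dir (pdir p is - 1) with ha
  set A := J + i₀ with hA
  have hAr : t ≤ (A : ℤ) * r := by
    have h2 : (A : ℤ) * r = J * r + i₀ * r := by rw [hA]; push_cast; ring
    rw [h2, ht, e3]
    omega
  have haw : a + t • dir (pdir p is - 1) = w 0 := by
    rw [w0, ha, ht]
    module
  refine ⟨fun i => if i ≤ A then a + (min ((i : ℤ) * r) t) • dir (pdir p is - 1) else w (i - A),
    fun i hi => ?_, fun i hi => ?_, fun i hi v hv => ?_, ?_⟩
  · beta_reduce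
    rw [if_pos (by omega)]
    have h2 : (i : ℤ) * r ≤ t := by
      have : (i : ℤ) * r ≤ i₀ * r := mul_le_mul_of_nonneg_right (by exact_mod_cast hi) (by omega)
      omega
    rw [min_eq_left h2, ha]
    push_cast
    module
  · beta_reduce
    by_cases h : i + 1 ≤ A
    · rw [if_pos h, if_pos (by omega)]
      exact line_step (by omega) (nm_dir _) i
    · rw [if_neg h]
      by_cases h2 : i ≤ A
      · have : i = A := by omega
        subst this
        rw [if_pos le_rfl, min_eq_right hAr, haw, show A + 1 - A = 0 + 1 by omega]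
        exact w3 0 (by omega)
      · rw [if_neg h2, show i + 1 - A = i - A + 1 by omega]
        exact w3 _ (by omega)
  · beta_reduce at hv
    by_cases h : i ≤ A
    · rw [if_pos h] at hv
      set s : ℤ := min ((i : ℤ) * r) t with hs
      have hs0 : 0 ≤ s := le_min (by positivity) (by omega)
      have hs1 : s ≤ t := min_le_right _ _
      have e : a + s • dir (pdir p is - 1) = (n : ℤ) • p (is : ZMod l) + (T : ℤ) • dir (pdir p is) +
          (((K + 2 : ℕ) : ℤ) * r + s) • dir (pdir p is - 1) := by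
        rw [ha]; module
      rw [e] at hv
      refine hgood _ _ (by omega) (by omega) (by rw [e3]; omega) ?_ v hv
      have : ((K + 2 : ℕ) : ℤ) * r + s ≤ H := by rw [ht] at hs1; omega
      omega
    · rw [if_neg h] at hv
      exact w2 _ (by omega) v hv
  · have hlast : ¬ (J + i₀ + (J + m') ≤ A) ∨ J + m' = 0 := by omega
    have hJ0 : 0 < J := by
      rcases Nat.eq_zero_or_pos J with h | h
      · subst h
        norm_num at hJε
      · exact h
    beta_reduce
    rw [if_neg (by omega), show J + i₀ + (J + m') - A = J + m' by omega, w1]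
    have h5 : (n : ℤ) * (⌈|R2|⌉ + 1) ≤ (cen n f).1 := by
      unfold cen
      have := mul_le_mul_of_nonneg_left hfN (show (0 : ℤ) ≤ n by omega)
      simp only
      omega
    have h6 : (cen n f).1 ≤ nm (cen n f) := (le_abs_self _).trans (nm_fst _)
    have h7 : ((n * (⌈|R2|⌉ + 1) : ℤ) : ℝ) ≤ nm (cen n f) := by exact_mod_cast h5.trans h6
    push_cast at h7
    have h8 := Int.le_ceil |R2|
    have h9 := le_abs_self R2
    nlinarith

end Vale.Agent.P167.H662.Z
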