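import Vale.Agent.P167.H662.Z.Kinds
import Vale.Agent.P167.H592.R.Out

/-!
# P167, general `q`, block P2S (Z-GEO), Z3: the neighbourhood of a special point
-/

namespace Vale.Agent.P167.H662.Z

open Finset
open Vale.Agent.P167.E6 (IsPolygon Encloses dir face)
open Vale.Agent.P167.H825 (enl pdir Marks bsite)
open Vale.Agent.P167.H825.Q (Row Bc frow jpos mem_frow)
open Vale.Agent.P167.H680.T (uI frows)
open Vale.Agent.P167.H662 (hsite)
open Vale.Agent.P167.H199 (Gap)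
open Vale.Agent.P167.H398.Q (hB)
open Vale.Agent.P167.H166N (Hs Qs)
open Vale.Agent.P167.FK (Bq)
open Vale.Agent.P167.Enl

variable {l : ℕ} {p : ZMod l → ℤ × ℤ} {n : ℕ} {S₀ : Finset (ℤ × ℤ)} {Q : Marks} {bc : Bc}
  {θ β : ℝ}

/-! ### lines -/

/-- The two lines: coordinates. -/
theorem line_cases (z : ℤ × ℤ) (r : Fin 4) (j : ℤ) :
    (r = 0 ∧ z + j • dir r = (z.1 + j, z.2) ∧ z + j • dir r + dir (r - 1) = (z.1 + j, z.2 - 1) ∧
      (∀ σ : ℤ, oz z r σ = (z.1 + σ, z.2 - 1)) ∧ ∀ σ : ℤ, face (vz z r σ) r = (z.1 + σ, z.2)) ∨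
    (r = 1 ∧ z + j • dir r = (z.1, z.2 + j) ∧ z + j • dir r + dir (r - 1) = (z.1 + 1, z.2 + j) ∧
      (∀ σ : ℤ, oz z r σ = (z.1, z.2 + σ)) ∧ ∀ σ : ℤ, face (vz z r σ) r = (z.1 - 1, z.2 + σ)) ∨
    (r = 2 ∧ z + j • dir r = (z.1 - j, z.2) ∧ z + j • dir r + dir (r - 1) = (z.1 - j, z.2 + 1) ∧
      (∀ σ : ℤ, oz z r σ = (z.1 - σ - 1, z.2)) ∧
      ∀ σ : ℤ, face (vz z r σ) r = (z.1 - σ - 1, z.2 - 1)) ∨
    (r = 3 ∧ z + j • dir r = (z.1, z.2 - j) ∧ z + j • dir r + dir (r - 1) = (z.1 - 1, z.2 - j) ∧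
      (∀ σ : ℤ, oz z r σ = (z.1 - 1, z.2 - σ - 1)) ∧
      ∀ σ : ℤ, face (vz z r σ) r = (z.1, z.2 - σ - 1)) := by
  obtain ⟨x, y⟩ := z
  rcases fin4_cases r with rfl | rfl | rfl | rfl
  · left
    refine ⟨rfl, ?_, ?_, fun σ => ?_, fun σ => ?_⟩
    · show (x, y) + j • ((1, 0) : ℤ × ℤ) = _
      simp
    · show (x, y) + j • ((1, 0) : ℤ × ℤ) + (0, -1) = _
      simp [sub_eq_add_neg]
    · show (x, y) + σ • ((1, 0) : ℤ × ℤ) + (0, -1) = _
      simp [sub_eq_add_neg]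
    · show (x, y) + σ • ((1, 0) : ℤ × ℤ) + (0, 0) = _
      simp
  · right; left
    refine ⟨rfl, ?_, ?_, fun σ => ?_, fun σ => ?_⟩
    · show (x, y) + j • ((0, 1) : ℤ × ℤ) = _
      simp
    · show (x, y) + j • ((0, 1) : ℤ × ℤ) + (1, 0) = _
      simp
    · show (x, y) + σ • ((0, 1) : ℤ × ℤ) + (0, 0) = _
      simp
    · show (x, y) + σ • ((0, 1) : ℤ × ℤ) + (-1, 0) = _
      simp [sub_eq_add_neg]
  · right; right; left
    refine ⟨rfl, ?_, ?_, fun σ => ?_, fun σ => ?_⟩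
    · show (x, y) + j • ((-1, 0) : ℤ × ℤ) = _
      simp [sub_eq_add_neg]
    · show (x, y) + j • ((-1, 0) : ℤ × ℤ) + (0, 1) = _
      simp [sub_eq_add_neg]
    · show (x, y) + σ • ((-1, 0) : ℤ × ℤ) + (-1, 0) = _
      simp [sub_eq_add_neg]
    · show (x, y) + σ • ((-1, 0) : ℤ × ℤ) + (-1, -1) = _
      simp [sub_eq_add_neg]
  · right; right; right
    refine ⟨rfl, ?_, ?_, fun σ => ?_, fun σ => ?_⟩
    · show (x, y) + j • ((0, -1) : ℤ × ℤ) = _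
      simp [sub_eq_add_neg]
    · show (x, y) + j • ((0, -1) : ℤ × ℤ) + (-1, 0) = _
      simp [sub_eq_add_neg]
    · show (x, y) + σ • ((0, -1) : ℤ × ℤ) + (-1, -1) = _
      simp [sub_eq_add_neg]
    · show (x, y) + σ • ((0, -1) : ℤ × ℤ) + (0, -1) = _
      simp [sub_eq_add_neg]

/-- The squares between the lines. -/
theorem oz_line (z : ℤ × ℤ) (r : Fin 4) (j σ : ℤ) :
    oz z r σ ∈ Qs r (z + j • dir r) ∧ oz z r σ ∉ Qs r (z + j • dir r + dir (r - 1)) := by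
  rcases line_cases z r j with ⟨rfl, h1, h2, h3, -⟩ | ⟨rfl, h1, h2, h3, -⟩ | ⟨rfl, h1, h2, h3, -⟩ |
    ⟨rfl, h1, h2, h3, -⟩ <;> rw [h2, h1, h3]
  · constructor
    · show z.2 - 1 < z.2
      omega
    · show ¬ z.2 - 1 < z.2 - 1
      omega
  · constructor
    · show z.1 ≤ z.1
      omega
    · show ¬ z.1 + 1 ≤ z.1
      omega
  · constructor
    · show z.2 ≤ z.2
      omega
    · show ¬ z.2 + 1 ≤ z.2
      omega
  · constructor
    · show z.1 - 1 < z.1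
      omega
    · show ¬ z.1 - 1 < z.1 - 1
      omega

/-- The outer half plane is smaller. -/
theorem Qs_sub {z : ℤ × ℤ} {r : Fin 4} {j : ℤ} {v : ℤ × ℤ}
    (h : v ∈ Qs r (z + j • dir r + dir (r - 1))) : v ∈ Qs r (z + j • dir r) := by
  rcases line_cases z r j with ⟨rfl, h1, h2, -, -⟩ | ⟨rfl, h1, h2, -, -⟩ | ⟨rfl, h1, h2, -, -⟩ |
    ⟨rfl, h1, h2, -, -⟩ <;> rw [h2] at h <;> rw [h1]
  · have : v.2 < z.2 - 1 := h
    show v.2 < z.2
    omega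
  · have : z.1 + 1 ≤ v.1 := h
    show z.1 ≤ v.1
    omega
  · have : z.2 + 1 ≤ v.2 := h
    show z.2 ≤ v.2
    omega
  · have : v.1 < z.1 - 1 := h
    show v.1 < z.1
    omega

/-- The squares between the lines near a point. -/
theorem line_oz {z : ℤ × ℤ} {r : Fin 4} {j m : ℤ} {v : ℤ × ℤ}
    (h1 : v ∈ Qs r (z + j • dir r)) (h2 : v ∉ Qs r (z + j • dir r + dir (r - 1)))
    (hm : nm (v - (z + j • dir r + dir (r - 1))) ≤ m) :
    ∃ σ : ℤ, j - m - 1 ≤ σ ∧ σ ≤ j + m ∧ v = oz z r σ := by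
  obtain ⟨a, b⟩ := v
  obtain ⟨m1, m2, m3, m4⟩ := H199.nm_le' hm
  rcases line_cases z r j with ⟨rfl, e1, e2, e3, -⟩ | ⟨rfl, e1, e2, e3, -⟩ | ⟨rfl, e1, e2, e3, -⟩ |
    ⟨rfl, e1, e2, e3, -⟩ <;> rw [e2] at h2 m1 m2 m3 m4 <;> rw [e1] at h1
  · have k1 : b < z.2 := h1
    have k2 : ¬ b < z.2 - 1 := h2
    simp only at m1 m2 m3 m4
    refine ⟨a - z.1, by omega, by omega, ?_⟩
    rw [e3]
    exact Prod.ext (by simp only; omega) (by simp only; omega)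
  · have k1 : z.1 ≤ a := h1
    have k2 : ¬ z.1 + 1 ≤ a := h2
    simp only at m1 m2 m3 m4
    refine ⟨b - z.2, by omega, by omega, ?_⟩
    rw [e3]
    exact Prod.ext (by simp only; omega) (by simp only; omega)
  · have k1 : z.2 ≤ b := h1
    have k2 : ¬ z.2 + 1 ≤ b := h2
    simp only at m1 m2 m3 m4
    refine ⟨z.1 - a - 1, by omega, by omega, ?_⟩
    rw [e3]
    exact Prod.ext (by simp only; omega) (by simp only; omega)
  · have k1 : a < z.1 := h1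
    have k2 : ¬ a < z.1 - 1 := h2
    simp only at m1 m2 m3 m4
    refine ⟨z.2 - b - 1, by omega, by omega, ?_⟩
    rw [e3]
    exact Prod.ext (by simp only; omega) (by simp only; omega)

theorem hpl_Qs (r : Fin 4) (z v : ℤ × ℤ) : H167.Q.hpl r z v ↔ v ∉ Qs r z := by
  rcases fin4_cases r with rfl | rfl | rfl | rfl
  · show z.2 ≤ v.2 ↔ ¬ v.2 < z.2
    omega
  · show v.1 < z.1 ↔ ¬ z.1 ≤ v.1
    omega
  · show v.2 < z.2 ↔ ¬ z.2 ≤ v.2
    omega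
  · show z.1 ≤ v.1 ↔ ¬ v.1 < z.1
    omega

theorem nm_dir1 (r : Fin 4) : nm (dir r) = 1 := by
  rcases fin4_cases r with rfl | rfl | rfl | rfl <;> rfl

theorem nm_yO (i : ℕ) : nm (yO p n Q bc i - yI p n Q bc i) = 1 := by
  unfold yO
  rw [add_sub_cancel_left, nm_dir1]

theorem yI_eq (i : ℕ) : yI p n Q bc i = yO p n Q bc i - dir (pdir p i - 1) := by
  unfold yO
  rw [add_sub_cancel_right]

/-- The squares on the two sides of a step. -/
theorem op_ip (i : ℕ) (σ : ℤ) :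
    nm (Enl.op p n i σ - face (vp p n i σ) (pdir p i)) ≤ 1 := by
  have h : ∀ (z : ℤ × ℤ) (r : Fin 4), nm (oz z r σ - face (vz z r σ) r) ≤ 1 := by
    intro z r
    rcases line_cases z r σ with ⟨rfl, -, -, h3, h4⟩ | ⟨rfl, -, -, h3, h4⟩ | ⟨rfl, -, -, h3, h4⟩ |
      ⟨rfl, -, -, h3, h4⟩ <;> rw [h3, h4] <;> simp [nm]
  exact h _ _

section

variable (hp : IsPolygon p) (hD : Encloses p S₀) (hQ : Q.Ok) {g δ : ℝ} (hg : Gap Q l g)
  (hbg : BGap l Q g bc) (hδ : 0 < δ) (hδg : 4 * δ ≤ g) (hn : 16 ≤ δ * n)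

include hp hD hQ hg hbg hδ hδg hn in
/-- **(Z3)** The enlarged polygon near the special point. -/
theorem z3_enl {x : Fin l × Fin (Q.m + 1)} (h : Spc l Q bc x) {v : ℤ × ℤ}
    (hv : (nm (v - yO p n Q bc x.1) : ℝ) ≤ g * n / 4) :
    v ∈ enl S₀ n ↔ v ∉ Qs (pdir p x.1) (yI p n Q bc x.1) := by
  have hrb := rb_of (p := p) hQ hg hδ hδg hn x.1.2 (j := x.2) (by omega)
  obtain ⟨m1, m2, m3, m4⟩ := spc_ends (p := p) hQ hg hbg hδ hδg hn h
  have hgn : 64 ≤ g * n := by linarith [hrb.hn, hrb.gn]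
  have h1 : nm (v - yI p n Q bc x.1) ≤ nm (v - yO p n Q bc x.1) + 1 := by
    have := nm_tri v (yO p n Q bc x.1) (yI p n Q bc x.1)
    rw [nm_yO] at this
    exact this
  have h2 : (nm (v - yI p n Q bc x.1) : ℝ) ≤ g * n / 4 + 1 := by
    have : (nm (v - yI p n Q bc x.1) : ℝ) ≤ nm (v - yO p n Q bc x.1) + 1 := by exact_mod_cast h1
    linarith
  have h3 : nm (v - yI p n Q bc x.1) < jpos n (tB n Q) bc x.1 := by
    have : (nm (v - yI p n Q bc x.1) : ℝ) < jpos n (tB n Q) bc x.1 := by linarith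
    exact_mod_cast this
  have h4 : nm (v - yI p n Q bc x.1) < n - jpos n (tB n Q) bc x.1 := by
    have : (nm (v - yI p n Q bc x.1) : ℝ) < n - jpos n (tB n Q) bc x.1 := by linarith
    exact_mod_cast this
  have hn0 : 0 < n := hrb.n0
  have h5 := enl_side hp hD hn0 (i := x.1) (t := (jpos n (tB n Q) bc x.1 : ℕ))
    (ρ := min ((jpos n (tB n Q) bc x.1 : ℕ) : ℤ) (n - (jpos n (tB n Q) bc x.1 : ℕ)))
    (min_le_left _ _) (min_le_right _ _) (v := v) (Bq_of (lt_min h3 h4))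
  rw [h5, hpl_Qs]
  rfl

include hQ hg hbg hδ hδg hn in
/-- **(Z3)** The row near the special point. -/
theorem z3_row {x : Fin l × Fin (Q.m + 1)} (h : Spc l Q bc x) {v : ℤ × ℤ}
    (hv : (nm (v - yO p n Q bc x.1) : ℝ) ≤ g * n / 4) :
    v ∈ (frows θ β p Q n ⌊δ * n⌋₊ bc x).I ↔
      v ∈ Qs (pdir p x.1) (yI p n Q bc x.1) ∧ v ∉ Qs (pdir p x.1) (yO p n Q bc x.1) := by
  have hrb := rb_of (p := p) hQ hg hδ hδg hn x.1.2 (j := x.2) (by omega)
  obtain ⟨m1, m2, m3, m4⟩ := spc_ends (p := p) hQ hg hbg hδ hδg hn h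
  have hgn : 64 ≤ g * n := by linarith [hrb.hn, hrb.gn]
  have e1 : (frows θ β p Q n ⌊δ * n⌋₊ bc x) = frow θ β p Q n ⌊δ * n⌋₊ bc x.1 x.2 := rfl
  rw [e1, mem_frow]
  constructor
  · rintro ⟨σ, -, -, rfl⟩
    exact oz_line _ _ _ _
  · rintro ⟨h1, h2⟩
    obtain ⟨σ, k1, k2, k3⟩ := line_oz h1 h2 le_rfl
    have k1' : ((jpos n (tB n Q) bc x.1 : ℕ) : ℝ) - nm (v - yO p n Q bc x.1) - 1 ≤ σ := by
      exact_mod_cast k1
    have k2' : (σ : ℝ) ≤ (jpos n (tB n Q) bc x.1 : ℕ) + nm (v - yO p n Q bc x.1) := by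
      exact_mod_cast k2
    have h3 : (sW p n Q ⌊δ * n⌋₊ x.1 x.2 : ℤ) ≤ σ := by
      have : (sW p n Q ⌊δ * n⌋₊ x.1 x.2 : ℝ) ≤ σ := by linarith
      exact_mod_cast this
    have h4 : σ < (eW p n Q ⌊δ * n⌋₊ x.1 x.2 : ℤ) := by
      have : (σ : ℝ) < eW p n Q ⌊δ * n⌋₊ x.1 x.2 := by linarith
      exact_mod_cast this
    refine ⟨σ.toNat, by omega, by omega, ?_⟩
    rw [k3]
    unfold H825.Q.osq
    rw [Int.toNat_of_nonneg (by omega)]
    rfl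

include hp hQ hg hbg hδ hδg hn in
/-- Points of other sides are far from the special point. -/
theorem z3_far {x : Fin l × Fin (Q.m + 1)} (h : Spc l Q bc x) {i τ : ℕ} (hi : i < l)
    (hτ : τ ≤ n) (hne : i ≠ x.1) : g * n - 2 ≤ (nm (yO p n Q bc x.1 - vp p n i τ) : ℝ) := by
  have hrb := rb_of (p := p) hQ hg hδ hδg hn x.1.2 (j := x.2) (by omega)
  obtain ⟨m1, m2, m3, m4⟩ := spc_ends (p := p) hQ hg hbg hδ hδg hn h
  have hgn : 64 ≤ g * n := by linarith [hrb.hn, hrb.gn]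
  have h4 : ⌈g * n - 1⌉ ≤ ((jpos n (tB n Q) bc x.1 : ℕ) : ℤ) := Int.ceil_le.2 (by
    push_cast; exact m3)
  have h5 : ⌈g * n - 1⌉ ≤ (n : ℤ) - (jpos n (tB n Q) bc x.1 : ℕ) := Int.ceil_le.2 (by
    push_cast; linarith)
  have h6 := vp_far hp x.1.2 hi (fun h' => hne h'.symm) (σ := (jpos n (tB n Q) bc x.1 : ℕ))
    (σ' := τ) (m := ⌈g * n - 1⌉) (n := n) (by omega) (by exact_mod_cast hτ) h4 h5 (by omega)
  have h7 : (g * n - 1 : ℝ) ≤ nm (yI p n Q bc x.1 - vp p n i τ) :=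
    (Int.le_ceil _).trans (by exact_mod_cast h6)
  have h8 := nm_tri (yI p n Q bc x.1) (yO p n Q bc x.1) (vp p n i τ)
  rw [nm_sub_comm (yI p n Q bc x.1) (yO p n Q bc x.1), nm_yO] at h8
  have h9 : (nm (yI p n Q bc x.1 - vp p n i τ) : ℝ) ≤ 1 + nm (yO p n Q bc x.1 - vp p n i τ) := by
    exact_mod_cast h8
  linarith

include hp hQ hg hbg hδ hδg hn in
/-- **(Z3)** No other row near the special point. -/
theorem z3_uI {x : Fin l × Fin (Q.m + 1)} (h : Spc l Q bc x) {v : ℤ × ℤ}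
    (hv : (nm (v - yO p n Q bc x.1) : ℝ) ≤ g * n / 4) :
    v ∈ uI (frows θ β p Q n ⌊δ * n⌋₊ bc) ↔ v ∈ (frows θ β p Q n ⌊δ * n⌋₊ bc x).I := by
  have hrb := rb_of (p := p) hQ hg hδ hδg hn x.1.2 (j := x.2) (by omega)
  have hgn : 64 ≤ g * n := by linarith [hrb.hn, hrb.gn]
  constructor
  · intro h1
    rw [uI_frows] at h1
    obtain ⟨y, τ, k1, k2, rfl⟩ := mem_frmQ.1 h1
    by_cases hy : y.1 = x.1
    · rw [z3_row hQ hg hbg hδ hδg hn h hv, hy]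
      exact oz_line _ _ _ _
    · exfalso
      have hτ := lt_n hQ (show 1 ≤ ⌊δ * n⌋₊ from Nat.le_floor (by push_cast; linarith))
        (Nat.lt_succ_iff.1 y.2.isLt) k1 k2
      have h2 := z3_far hp hQ hg hbg hδ hδg hn h y.1.2 hτ.le fun h' => hy (Fin.ext h')
      have a1 := op_near (p := p) (n := n) y.1 τ
      have a2 := nm_tri (yO p n Q bc x.1) (Enl.op p n y.1 τ) (vp p n y.1 τ)
      rw [nm_sub_comm (yO p n Q bc x.1) (Enl.op p n y.1 τ)] at a2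
      have a3 : (nm (yO p n Q bc x.1 - vp p n y.1 τ) : ℝ) ≤
          nm (Enl.op p n y.1 τ - yO p n Q bc x.1) + 1 := by
        have : nm (yO p n Q bc x.1 - vp p n y.1 τ) ≤
          nm (Enl.op p n y.1 τ - yO p n Q bc x.1) + 1 := by omega
        exact_mod_cast this
      linarith
  · intro h1
    exact H680.T.mem_uI.2 ⟨x, h1⟩

include hp hD hQ hg hbg hδ hδg hn in
/-- **(Z3)** The squares beyond the row are free. -/
theorem z3_out {x : Fin l × Fin (Q.m + 1)} (h : Spc l Q bc x) {v : ℤ × ℤ}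
    (hv : (nm (v - yO p n Q bc x.1) : ℝ) ≤ g * n / 4)
    (h1 : v ∈ Qs (pdir p x.1) (yO p n Q bc x.1)) :
    v ∉ enl S₀ n ∧ v ∉ uI (frows θ β p Q n ⌊δ * n⌋₊ bc) := by
  constructor
  · rw [z3_enl hp hD hQ hg hbg hδ hδg hn h hv, not_not]
    exact Qs_sub h1
  · rw [z3_uI hp hQ hg hbg hδ hδg hn h hv, z3_row hQ hg hbg hδ hδg hn h hv]
    exact fun h2 => h2.2 h1

include hp hQ hg hbg hδ hδg hn in
/-- **(Z3)** The marks are far from the special point. -/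
theorem z3_mark {x : Fin l × Fin (Q.m + 1)} (h : Spc l Q bc x) (y : Fin l × Fin (Q.m + 1)) :
    g * n - 2 ≤ (nm (yO p n Q bc x.1 - hsite p Q n y) : ℝ) := by
  by_cases hy : y.1 = x.1
  · have hrb := rb_of (p := p) hQ hg hδ hδg hn x.1.2 (j := x.2) (by omega)
    obtain ⟨s1, s2⟩ := spc_gap hg hbg h
    have hn0 : (0 : ℝ) ≤ n := Nat.cast_nonneg n
    have hj := y.2.isLt
    have hx := x.2.isLt
    have hg0 : 0 < g := by linarith
    have t0 : 0 ≤ Q.θ x.1 x.2 := theta_nonneg hQ x.1 (by omega)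
    have t2 : 0 ≤ Q.θ x.1 y.2 := theta_nonneg hQ x.1 (by omega)
    have e1 : ((jpos n (tB n Q) bc x.1 : ℕ) : ℝ) ≤ tS Q bc x.1 * n := by
      rw [jpos_floor]
      exact Nat.floor_le (mul_nonneg (by linarith) hn0)
    have e2 : tS Q bc x.1 * n < (jpos n (tB n Q) bc x.1 : ℕ) + 1 := by
      rw [jpos_floor]
      exact Nat.lt_floor_add_one _
    have e3 : ((⌊Q.θ x.1 y.2 * n⌋₊ : ℕ) : ℝ) ≤ Q.θ x.1 y.2 * n :=
      Nat.floor_le (mul_nonneg t2 hn0)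
    have e4 : Q.θ x.1 y.2 * n < (⌊Q.θ x.1 y.2 * n⌋₊ : ℕ) + 1 := Nat.lt_floor_add_one _
    have h3 : yI p n Q bc x.1 - hsite p Q n y =
        vp p n x.1 (jpos n (tB n Q) bc x.1 : ℕ) - vp p n x.1 (⌊Q.θ x.1 y.2 * n⌋₊ : ℤ) := by
      have : hsite p Q n y = vp p n y.1 (⌊Q.θ y.1 y.2 * n⌋₊ : ℤ) := rfl
      rw [this, hy]
      rfl
    have h4 : nm (yI p n Q bc x.1 - hsite p Q n y) =
        |((jpos n (tB n Q) bc x.1 : ℕ) : ℤ) - (⌊Q.θ x.1 y.2 * n⌋₊ : ℤ)| := by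
      rw [h3, vp_same]
    have h5 : (g * n - 1 : ℝ) ≤ nm (yI p n Q bc x.1 - hsite p Q n y) := by
      rw [h4]
      push_cast
      rcases Nat.lt_or_ge x.2 y.2 with h6 | h6
      · have h7 := H199.marks_mono hQ x.1 (show (x.2 : ℕ) + 1 ≤ y.2 by omega) (by omega)
        have h8 : (tS Q bc x.1 + g) * n ≤ Q.θ x.1 y.2 * n :=
          mul_le_mul_of_nonneg_right (by linarith) hn0
        refine le_trans ?_ (neg_le_abs _)
        linarith
      · have h7 := H199.marks_mono hQ x.1 (show (y.2 : ℕ) ≤ x.2 by omega) (by omega)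
        have h8 : (Q.θ x.1 y.2 + g) * n ≤ tS Q bc x.1 * n :=
          mul_le_mul_of_nonneg_right (by linarith) hn0
        refine le_trans ?_ (le_abs_self _)
        linarith
    have h8 := nm_tri (yI p n Q bc x.1) (yO p n Q bc x.1) (hsite p Q n y)
    rw [nm_sub_comm (yI p n Q bc x.1) (yO p n Q bc x.1), nm_yO] at h8
    have h9 : (nm (yI p n Q bc x.1 - hsite p Q n y) : ℝ) ≤
        1 + nm (yO p n Q bc x.1 - hsite p Q n y) := by exact_mod_cast h8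
    linarith
  · exact z3_far hp hQ hg hbg hδ hδg hn h y.1.2 (fl hQ n y.1 (by omega)).2.2
      fun h' => hy (Fin.ext h')

include hp hQ hg hbg hδ hδg hn in
/-- **(Z3)** The boxes of the marks are far from the special point. -/
theorem z3_hB {x : Fin l × Fin (Q.m + 1)} (h : Spc l Q bc x) {v : ℤ × ℤ} {R : ℤ}
    (hv : (nm (v - yO p n Q bc x.1) : ℝ) ≤ g * n / 4) (hR : (R : ℝ) ≤ g * n / 2) :
    v ∉ hB p Q n R := by
  intro h1
  obtain ⟨y, hy⟩ := mem_hB.1 h1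
  have hrb := rb_of (p := p) hQ hg hδ hδg hn x.1.2 (j := x.2) (by omega)
  have hgn : 64 ≤ g * n := by linarith [hrb.hn, hrb.gn]
  have h2 := z3_mark hp hQ hg hbg hδ hδg hn h y
  have h3 := mem_Bq' hy
  have h4 := nm_tri (yO p n Q bc x.1) v (hsite p Q n y)
  rw [nm_sub_comm (yO p n Q bc x.1) v] at h4
  have h5 : (nm (yO p n Q bc x.1 - hsite p Q n y) : ℝ) ≤ nm (v - yO p n Q bc x.1) + R := by
    have : nm (yO p n Q bc x.1 - hsite p Q n y) ≤ nm (v - yO p n Q bc x.1) + R := by omega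
    exact_mod_cast this
  linarith

include hp hD hQ hn in
/-- **(Z3)** The squares of the rows are next to the domain. -/
theorem z3_in {v : ℤ × ℤ} (hv : v ∈ uI (frows θ β p Q n ⌊δ * n⌋₊ bc)) :
    ∃ w ∈ enl S₀ n, nm (v - w) ≤ 1 := by
  rw [uI_frows] at hv
  obtain ⟨y, τ, k1, k2, rfl⟩ := mem_frmQ.1 hv
  have hτ := lt_n hQ (show 1 ≤ ⌊δ * n⌋₊ from Nat.le_floor (by push_cast; linarith))
    (Nat.lt_succ_iff.1 y.2.isLt) k1 k2
  exact ⟨_, ip_in hp hD y.1.2 hτ, op_ip _ _⟩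

end

end Vale.Agent.P167.H662.Z
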