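import Vale.Agent.P167.H592.S.Tips
import Vale.Agent.P167.H166N.V4Defs
import Vale.Agent.P167.H199.Half

/-!
# P167, general `q`, block P2S (Z-GEO), Z1 and Z2: the rows with a special point and their kinds
-/

namespace Vale.Agent.P167.H662.Z

open Finset
open Vale.Agent.P167.E6 (IsPolygon Encloses dir face)
open Vale.Agent.P167.H825 (enl pdir Marks bsite ptau)
open Vale.Agent.P167.H825.Q (Row Bc frow srow stΦ stτ jpos frow_eq)
open Vale.Agent.P167.H680.T (uI frows)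
open Vale.Agent.P167.H662 (hsite)
open Vale.Agent.P167.H199 (Gap)
open Vale.Agent.P167.H945.Q (Plain tj)
open Vale.Agent.P167.Enl

variable {l : ℕ} {p : ZMod l → ℤ × ℤ} {n : ℕ} {S₀ : Finset (ℤ × ℤ)} {Q : Marks} {bc : Bc}
  {θ β : ℝ}

/-! ### definitions -/

/-- The exterior face of the rows of a side of direction `r`. -/
def ex (r : Fin 4) : Bool := ![false, true, true, false] r

/-- The position of the special point on the side `i`. -/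
noncomputable def tS (Q : Marks) (bc : Bc) (i : ℕ) : ℝ :=
  if i = 0 then Q.tp else match bc with
    | .dob _ ta => ta
    | _ => 0

/-- The rows with a special point. -/
def Spc (l : ℕ) (Q : Marks) (bc : Bc) (x : Fin l × Fin (Q.m + 1)) : Prop :=
  ((x.1 : ℕ) = 0 ∨ ∃ ta : ℝ, bc = .dob x.1 ta) ∧ Q.θ x.1 x.2 < tS Q bc x.1 ∧
    tS Q bc x.1 < Q.θ x.1 (x.2 + 1)

/-- The special site of the side `i` (on the boundary of the domain). -/
noncomputable def yI (p : ZMod l → ℤ × ℤ) (n : ℕ) (Q : Marks) (bc : Bc) (i : ℕ) : ℤ × ℤ :=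
  vp p n i (jpos n (tB n Q) bc i : ℕ)

/-- The special outer site of the side `i`: beyond the row. -/
noncomputable def yO (p : ZMod l → ℤ × ℤ) (n : ℕ) (Q : Marks) (bc : Bc) (i : ℕ) : ℤ × ℤ :=
  yI p n Q bc i + dir (pdir p i - 1)

/-- The corner of the first square behind the special point, on the face `b`. -/
def crn (r : Row) (b : Bool) : ℤ × ℤ :=
  if r.o then ((r.sq r.k0).1, (r.sq r.k0).2 + if b then 1 else 0)
  else ((r.sq r.k0).1 + if b then 1 else 0, (r.sq r.k0).2)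

theorem yI_def (i : ℕ) : yI p n Q bc i =
    (n : ℤ) • p i + ((jpos n (tB n Q) bc i : ℕ) : ℤ) • dir (pdir p i) := rfl

theorem yI_zero : yI p n Q bc 0 = bsite p Q n := by
  show (n : ℤ) • p ((0 : ℕ) : ZMod l) + (((if (0 : ℕ) = 0 then tB n Q else _ : ℕ)) : ℤ) • _ = _
  rw [if_pos rfl, Nat.cast_zero]
  rfl

theorem jpos_floor (i : ℕ) : jpos n (tB n Q) bc i = ⌊tS Q bc i * n⌋₊ := by
  unfold jpos tS tB
  by_cases h : i = 0
  · rw [if_pos h, if_pos h]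
  · rw [if_neg h, if_neg h]
    cases bc with
    | free => show 0 = ⌊(0 : ℝ) * n⌋₊; simp
    | wired => show 0 = ⌊(0 : ℝ) * n⌋₊; simp
    | dob ia ta => rfl

/-! ### rows along a side -/

theorem srow_tj (z : ℤ × ℤ) (r : Fin 4) (s e jp : ℕ) (F T : ℕ → ℝ) :
    tj (srow z r s e jp F T) (ex r) * (srow z r s e jp F T).j = 2 * (F (e - 1) - F s) ∧
    |(srow z r s e jp F T).j| = |F (e - 1) - F s| ∧
    (srow z r s e jp F T).η = T s * T (e - 1) ∧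
    ((srow z r s e jp F T).o = true ↔ r = 0 ∨ r = 2) := by
  rcases fin4_cases r with rfl | rfl | rfl | rfl
  · refine ⟨?_, rfl, rfl, iff_of_true rfl (Or.inl rfl)⟩
    have : tj (srow z 0 s e jp F T) (ex 0) = 2 := by simp [tj, srow, ex]
    rw [this]; rfl
  · refine ⟨?_, rfl, rfl, iff_of_false (by simp [srow]) (by decide)⟩
    have : tj (srow z 1 s e jp F T) (ex 1) = 2 := by simp [tj, srow, ex]
    rw [this]; rfl
  · refine ⟨?_, abs_sub_comm _ _, rfl, iff_of_true rfl (Or.inr rfl)⟩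
    have : tj (srow z 2 s e jp F T) (ex 2) = -2 := by simp [tj, srow, ex]
    rw [this]
    show -2 * (F s - F (e - 1)) = _
    ring
  · refine ⟨?_, abs_sub_comm _ _, rfl, iff_of_false (by simp [srow]) (by decide)⟩
    have : tj (srow z 3 s e jp F T) (ex 3) = -2 := by simp [tj, srow, ex]
    rw [this]
    show -2 * (F s - F (e - 1)) = _
    ring

theorem srow_crn (z : ℤ × ℤ) (r : Fin 4) {s e jp : ℕ} (F T : ℕ → ℝ) (h1 : s ≤ jp) (h2 : jp ≤ e) :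
    crn (srow z r s e jp F T) (ex r) = z + (jp : ℤ) • dir r + dir (r - 1) := by
  obtain ⟨x, y⟩ := z
  rcases fin4_cases r with rfl | rfl | rfl | rfl
  · show (x + (s : ℤ) + ((jp - s : ℕ) : ℤ), y - 1 + 0) =
      (x, y) + (jp : ℤ) • ((1, 0) : ℤ × ℤ) + (0, -1)
    simp only [Prod.smul_mk, smul_eq_mul, Prod.mk_add_mk, Prod.mk.injEq]
    omega
  · show (x + 1, y + (s : ℤ) + ((jp - s : ℕ) : ℤ)) =
      (x, y) + (jp : ℤ) • ((0, 1) : ℤ × ℤ) + (1, 0)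
    simp only [Prod.smul_mk, smul_eq_mul, Prod.mk_add_mk, Prod.mk.injEq]
    omega
  · show (x - (e : ℤ) + ((e - jp : ℕ) : ℤ), y + 1) =
      (x, y) + (jp : ℤ) • ((-1, 0) : ℤ × ℤ) + (0, 1)
    simp only [Prod.smul_mk, smul_eq_mul, Prod.mk_add_mk, Prod.mk.injEq]
    omega
  · show (x - 1 + 0, y - (e : ℤ) + ((e - jp : ℕ) : ℤ)) =
      (x, y) + (jp : ℤ) • ((0, -1) : ℤ × ℤ) + (-1, 0)
    simp only [Prod.smul_mk, smul_eq_mul, Prod.mk_add_mk, Prod.mk.injEq]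
    omega

/-! ### positions -/

section

variable (hQ : Q.Ok) (hb : bc.Ok l Q) {g δ : ℝ} (hg : Gap Q l g) (hbg : BGap l Q g bc)

include hg hbg in
/-- The gaps at the special point. -/
theorem spc_gap {x : Fin l × Fin (Q.m + 1)} (h : Spc l Q bc x) :
    Q.θ x.1 x.2 + g ≤ tS Q bc x.1 ∧ tS Q bc x.1 + g ≤ Q.θ x.1 (x.2 + 1) := by
  obtain ⟨h0, h1, h2⟩ := h
  have hx := x.2.isLt
  by_cases hi : (x.1 : ℕ) = 0
  · have e : tS Q bc x.1 = Q.tp := by unfold tS; rw [if_pos hi]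
    rw [e] at h1 h2 ⊢
    rw [hi] at h1 h2 ⊢
    have a1 := hg.2 x.2 (by omega)
    have a2 := hg.2 (x.2 + 1) (by omega)
    rw [abs_of_neg (by linarith)] at a1
    rw [abs_of_pos (by linarith)] at a2
    constructor <;> linarith
  · rcases h0 with h0 | ⟨ta, rfl⟩
    · exact absurd h0 hi
    · have e : tS Q (.dob x.1 ta) x.1 = ta := by unfold tS; rw [if_neg hi]
      rw [e] at h1 h2 ⊢
      obtain ⟨-, -, -, -, c5⟩ := hbg
      have a1 := c5 x.2 (by omega)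
      have a2 := c5 (x.2 + 1) (by omega)
      rw [abs_of_neg (by linarith)] at a1
      rw [abs_of_pos (by linarith)] at a2
      constructor <;> linarith

variable (hδ : 0 < δ) (hδg : 4 * δ ≤ g) (hn : 16 ≤ δ * n)

include hQ hg hbg hδ hδg hn in
/-- The special point is far from the ends of its row and of its side. -/
theorem spc_ends {x : Fin l × Fin (Q.m + 1)} (h : Spc l Q bc x) :
    (sW p n Q ⌊δ * n⌋₊ x.1 x.2 : ℝ) + g * n / 2 + 8 ≤ jpos n (tB n Q) bc x.1 ∧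
    (jpos n (tB n Q) bc x.1 : ℝ) + g * n / 2 + 8 ≤ eW p n Q ⌊δ * n⌋₊ x.1 x.2 ∧
    g * n - 1 ≤ jpos n (tB n Q) bc x.1 ∧ (jpos n (tB n Q) bc x.1 : ℝ) + g * n - 1 ≤ n := by
  obtain ⟨h1, h2⟩ := spc_gap hg hbg h
  have hl : 0 < l := (Nat.zero_le _).trans_lt x.1.isLt
  have hn0 : (0 : ℝ) ≤ n := Nat.cast_nonneg n
  obtain ⟨⟨a1, a2⟩, ⟨a3, a4⟩, -⟩ := ends_bd (p := p) hQ hg hδ hδg hn x.1.2 (j := x.2) (by omega)
  have t0 : 0 ≤ Q.θ x.1 x.2 := theta_nonneg hQ x.1 (by omega)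
  have t1 : Q.θ x.1 (x.2 + 1) ≤ 1 := theta_le_one hQ x.1 (by omega)
  have hg0 : 0 < g := by linarith
  have e1 : ((jpos n (tB n Q) bc x.1 : ℕ) : ℝ) ≤ tS Q bc x.1 * n := by
    rw [jpos_floor]
    exact Nat.floor_le (mul_nonneg (by linarith) hn0)
  have e2 : tS Q bc x.1 * n < (jpos n (tB n Q) bc x.1 : ℕ) + 1 := by
    rw [jpos_floor]
    exact Nat.lt_floor_add_one _
  have b1 : (Q.θ x.1 x.2 + g) * n ≤ tS Q bc x.1 * n := mul_le_mul_of_nonneg_right h1 hn0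
  have b2 : (tS Q bc x.1 + g) * n ≤ Q.θ x.1 (x.2 + 1) * n := mul_le_mul_of_nonneg_right h2 hn0
  have b3 : 4 * δ * n ≤ g * n := mul_le_mul_of_nonneg_right hδg hn0
  have b4 : 0 ≤ Q.θ x.1 x.2 * n := mul_nonneg t0 hn0
  have b5 : Q.θ x.1 (x.2 + 1) * n ≤ 1 * n := mul_le_mul_of_nonneg_right t1 hn0
  refine ⟨by linarith, by linarith, by linarith, by linarith⟩

variable (hp : IsPolygon p) (hD : Encloses p S₀)

include hp hD hQ hb hg hbg hδ hδg hn in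
/-- The values of the row of the base point. -/
theorem base_val {x : Fin l × Fin (Q.m + 1)} (h : Spc l Q bc x) (hi : (x.1 : ℕ) = 0) :
    ((bc = .free ∨ bc = .wired) →
      tj (frows θ β p Q n ⌊δ * n⌋₊ bc x) (ex (pdir p x.1)) *
        (frows θ β p Q n ⌊δ * n⌋₊ bc x).j = -(2 * θ) ∧
      |(frows θ β p Q n ⌊δ * n⌋₊ bc x).j| = |θ| ∧
      (frows θ β p Q n ⌊δ * n⌋₊ bc x).η = 1) ∧
    (∀ (ia : ℕ) (ta : ℝ), bc = .dob ia ta →
      tj (frows θ β p Q n ⌊δ * n⌋₊ bc x) (ex (pdir p x.1)) *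
        (frows θ β p Q n ⌊δ * n⌋₊ bc x).j = -(2 * (β + θ)) ∧
      |(frows θ β p Q n ⌊δ * n⌋₊ bc x).j| = |β + θ| ∧
      (frows θ β p Q n ⌊δ * n⌋₊ bc x).η = -1) := by
  have hrb := rb_of (p := p) hQ hg hδ hδg hn x.1.2 (j := x.2) (by omega)
  obtain ⟨m1, m2, m3, m4⟩ := spc_ends (p := p) hQ hg hbg hδ hδg hn h
  have hgn : 0 ≤ g * n := by linarith [hrb.hn, hrb.gn]
  have hsj : sW p n Q ⌊δ * n⌋₊ x.1 x.2 < jpos n (tB n Q) bc x.1 := by
    have : (sW p n Q ⌊δ * n⌋₊ x.1 x.2 : ℝ) < jpos n (tB n Q) bc x.1 := by linarith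
    exact_mod_cast this
  have hje : jpos n (tB n Q) bc x.1 < eW p n Q ⌊δ * n⌋₊ x.1 x.2 := by
    have : (jpos n (tB n Q) bc x.1 : ℝ) < eW p n Q ⌊δ * n⌋₊ x.1 x.2 := by linarith
    exact_mod_cast this
  have hjt : jpos n (tB n Q) bc x.1 = tB n Q := by unfold jpos; rw [if_pos hi]
  rw [hjt] at hsj hje
  obtain ⟨q1, q2, q3, -⟩ := srow_tj ((n : ℤ) • p x.1) (pdir p x.1) (sW p n Q ⌊δ * n⌋₊ x.1 x.2)
    (eW p n Q ⌊δ * n⌋₊ x.1 x.2) (jpos n (tB n Q) bc x.1)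
    (fun σ => stΦ θ β (uN p n (tB n Q)) (bc.ka l n (tB n Q)) (kOf l n (tB n Q) x.1 σ))
    (fun σ => stτ (bc.ka l n (tB n Q)) (kOf l n (tB n Q) x.1 σ))
  rw [← frow_eq (θ := θ) (β := β) (d := ⌊δ * n⌋₊)] at q1 q2 q3
  have u1 := H825.Q.uN_kOf hp hD hrb.ht hrb.il hrb.sn
  have u2 := H825.Q.uN_kOf hp hD hrb.ht hrb.il hrb.en
  rw [if_pos hi, if_pos hsj] at u1
  rw [if_pos hi, if_neg (by omega), add_zero] at u2
  have k1 := H825.Q.ka_kOf hb hrb.ht hrb.il hrb.sn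
  have k2 := H825.Q.ka_kOf hb hrb.ht hrb.il hrb.en
  have e1 : (frows θ β p Q n ⌊δ * n⌋₊ bc x) = frow θ β p Q n ⌊δ * n⌋₊ bc x.1 x.2 := rfl
  rw [e1, q1, q2, q3]
  constructor
  · rintro (rfl | rfl)
    · obtain ⟨a1, a2⟩ := stΦ_eq (θ := θ) (β := β) (u := uN p n (tB n Q)) (k1.2 trivial)
      obtain ⟨a3, a4⟩ := stΦ_eq (θ := θ) (β := β) (u := uN p n (tB n Q)) (k2.2 trivial)
      rw [a1, a2, a3, a4, u1, u2]
      push_cast
      refine ⟨by ring, ?_, by ring⟩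
      rw [show θ / 4 * ((pdir p 0 : ℕ) : ℝ) - θ / 4 * (((pdir p 0 : ℕ) : ℝ) + 4) = -θ by ring,
        abs_neg]
    · obtain ⟨a1, a2⟩ := stΦ_eq' (θ := θ) (β := β) (u := uN p n (tB n Q)) k1.1
      obtain ⟨a3, a4⟩ := stΦ_eq' (θ := θ) (β := β) (u := uN p n (tB n Q)) k2.1
      rw [a1, a2, a3, a4, u1, u2]
      push_cast
      refine ⟨by ring, ?_, by ring⟩
      rw [show θ / 4 * ((pdir p 0 : ℕ) : ℝ) + β - (θ / 4 * (((pdir p 0 : ℕ) : ℝ) + 4) + β) =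
        -θ by ring, abs_neg]
  · rintro ia ta rfl
    have k1' : ¬ kOf l n (tB n Q) x.1 (sW p n Q ⌊δ * n⌋₊ x.1 x.2) <
        (Bc.dob ia ta).ka l n (tB n Q) := by
      rw [k1]
      show ¬ (if (x.1 : ℕ) = 0 then _ else _)
      rw [if_pos hi]
      omega
    have k2' : kOf l n (tB n Q) x.1 (eW p n Q ⌊δ * n⌋₊ x.1 x.2 - 1) <
        (Bc.dob ia ta).ka l n (tB n Q) := by
      rw [k2]
      show (if (x.1 : ℕ) = 0 then _ else _)
      rw [if_pos hi]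
      omega
    obtain ⟨a1, a2⟩ := stΦ_eq' (θ := θ) (β := β) (u := uN p n (tB n Q)) k1'
    obtain ⟨a3, a4⟩ := stΦ_eq (θ := θ) (β := β) (u := uN p n (tB n Q)) k2'
    rw [a1, a2, a3, a4, u1, u2]
    push_cast
    refine ⟨by ring, ?_, by ring⟩
    rw [show θ / 4 * ((pdir p 0 : ℕ) : ℝ) - (θ / 4 * (((pdir p 0 : ℕ) : ℝ) + 4) + β) =
      -(β + θ) by ring, abs_neg]

include hp hD hQ hb hg hbg hδ hδg hn in
/-- The values of the row of the junction. -/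
theorem jun_val {x : Fin l × Fin (Q.m + 1)} (h : Spc l Q bc x) (hi : (x.1 : ℕ) ≠ 0) :
    tj (frows θ β p Q n ⌊δ * n⌋₊ bc x) (ex (pdir p x.1)) *
      (frows θ β p Q n ⌊δ * n⌋₊ bc x).j = 2 * β ∧
    |(frows θ β p Q n ⌊δ * n⌋₊ bc x).j| = |β| ∧
    (frows θ β p Q n ⌊δ * n⌋₊ bc x).η = -1 := by
  have hrb := rb_of (p := p) hQ hg hδ hδg hn x.1.2 (j := x.2) (by omega)
  obtain ⟨m1, m2, m3, m4⟩ := spc_ends (p := p) hQ hg hbg hδ hδg hn h
  have hgn : 0 ≤ g * n := by linarith [hrb.hn, hrb.gn]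
  have hsj : sW p n Q ⌊δ * n⌋₊ x.1 x.2 < jpos n (tB n Q) bc x.1 := by
    have : (sW p n Q ⌊δ * n⌋₊ x.1 x.2 : ℝ) < jpos n (tB n Q) bc x.1 := by linarith
    exact_mod_cast this
  have hje : jpos n (tB n Q) bc x.1 < eW p n Q ⌊δ * n⌋₊ x.1 x.2 := by
    have : (jpos n (tB n Q) bc x.1 : ℝ) < eW p n Q ⌊δ * n⌋₊ x.1 x.2 := by linarith
    exact_mod_cast this
  obtain ⟨h0 | ⟨ta, rfl⟩, h1, h2⟩ := h
  · exact absurd h0 hi
  have hjt : jpos n (tB n Q) (.dob x.1 ta) x.1 = ⌊ta * n⌋₊ := by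
    unfold jpos
    rw [if_neg hi]
    rfl
  rw [hjt] at hsj hje
  obtain ⟨q1, q2, q3, -⟩ := srow_tj ((n : ℤ) • p x.1) (pdir p x.1) (sW p n Q ⌊δ * n⌋₊ x.1 x.2)
    (eW p n Q ⌊δ * n⌋₊ x.1 x.2) (jpos n (tB n Q) (.dob x.1 ta) x.1)
    (fun σ => stΦ θ β (uN p n (tB n Q)) ((Bc.dob x.1 ta).ka l n (tB n Q))
      (kOf l n (tB n Q) x.1 σ))
    (fun σ => stτ ((Bc.dob x.1 ta).ka l n (tB n Q)) (kOf l n (tB n Q) x.1 σ))
  rw [← frow_eq (θ := θ) (β := β) (d := ⌊δ * n⌋₊)] at q1 q2 q3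
  have u1 := H825.Q.uN_kOf hp hD hrb.ht hrb.il hrb.sn
  have u2 := H825.Q.uN_kOf hp hD hrb.ht hrb.il hrb.en
  rw [if_neg hi] at u1 u2
  have k1 := H825.Q.ka_kOf hb hrb.ht hrb.il hrb.sn
  have k2 := H825.Q.ka_kOf hb hrb.ht hrb.il hrb.en
  have e1 : (frows θ β p Q n ⌊δ * n⌋₊ (.dob x.1 ta) x) =
    frow θ β p Q n ⌊δ * n⌋₊ (.dob x.1 ta) x.1 x.2 := rfl
  rw [e1, q1, q2, q3]
  have k1' : kOf l n (tB n Q) x.1 (sW p n Q ⌊δ * n⌋₊ x.1 x.2) <
      (Bc.dob x.1 ta).ka l n (tB n Q) := by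
    rw [k1]
    show (if (x.1 : ℕ) = 0 then _ else _)
    rw [if_neg hi]
    exact Or.inr ⟨rfl, hsj⟩
  have k2' : ¬ kOf l n (tB n Q) x.1 (eW p n Q ⌊δ * n⌋₊ x.1 x.2 - 1) <
      (Bc.dob x.1 ta).ka l n (tB n Q) := by
    rw [k2]
    show ¬ (if (x.1 : ℕ) = 0 then _ else _)
    rw [if_neg hi]
    omega
  obtain ⟨a1, a2⟩ := stΦ_eq (θ := θ) (β := β) (u := uN p n (tB n Q)) k1'
  obtain ⟨a3, a4⟩ := stΦ_eq' (θ := θ) (β := β) (u := uN p n (tB n Q)) k2'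
  rw [a1, a2, a3, a4, u1, u2]
  refine ⟨by ring, ?_, by ring⟩
  rw [add_sub_cancel_left]

/-! ### Z1 -/

variable (hθ : 0 < θ) (hθ' : 3 * θ ≤ Real.pi)
  (hβ : β = (θ - Real.pi) / 2 ∨ β = (Real.pi - 3 * θ) / 2)

include hp hD hQ hb hg hbg hδ hδg hn hθ hθ' hβ in
/-- **(Z1)** The rows which are not plain. -/
theorem z1 {x : Fin l × Fin (Q.m + 1)} :
    ¬ Plain (frows θ β p Q n ⌊δ * n⌋₊ bc x) ↔ Spc l Q bc x := by
  constructor
  · intro hx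
    obtain ⟨σ, jp, -, -, rfl, c3, c4, -, -, -⟩ :=
      spec_pos hp hD hQ hg hδ hδg hn hb hbg hθ hθ' hβ hx
    have hrb := rb_of (p := p) hQ hg hδ hδg hn x.1.2 (j := x.2) (by omega)
    have hn0 : (0 : ℝ) ≤ n := Nat.cast_nonneg n
    refine ⟨?_, ?_, ?_⟩
    · by_contra hcon
      push Not at hcon
      exact hx (plain_of hp hD hQ hb (by
        have := hrb.hn
        exact Nat.le_floor (by push_cast; linarith)) x.1.2 (by omega) hcon.1 hrb.se hcon.2)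
    · by_contra hcon
      push Not at hcon
      have h1 : ⌊tS Q bc x.1 * n⌋₊ ≤ ⌊Q.θ x.1 x.2 * n⌋₊ :=
        Nat.floor_le_floor (mul_le_mul_of_nonneg_right hcon hn0)
      rw [← jpos_floor] at h1
      have := hrb.s3
      omega
    · by_contra hcon
      push Not at hcon
      have h1 : ⌊Q.θ x.1 (x.2 + 1) * n⌋₊ ≤ ⌊tS Q bc x.1 * n⌋₊ :=
        Nat.floor_le_floor (mul_le_mul_of_nonneg_right hcon hn0)
      rw [← jpos_floor] at h1
      have := hrb.e3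
      omega
  · rintro hs ⟨h1, h2⟩
    by_cases hi : (x.1 : ℕ) = 0
    · obtain ⟨a1, a2⟩ := base_val (θ := θ) (β := β) hQ hb hg hbg hδ hδg hn hp hD hs hi
      cases bc with
      | free =>
        obtain ⟨-, a4, -⟩ := a1 (Or.inl rfl)
        rw [h1, abs_zero, abs_of_pos hθ] at a4
        linarith
      | wired =>
        obtain ⟨-, a4, -⟩ := a1 (Or.inr rfl)
        rw [h1, abs_zero, abs_of_pos hθ] at a4
        linarith
      | dob ia ta =>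
        obtain ⟨-, -, a5⟩ := a2 ia ta rfl
        rw [h2] at a5
        norm_num at a5
    · obtain ⟨-, -, a5⟩ := jun_val (θ := θ) (β := β) hQ hb hg hbg hδ hδg hn hp hD hs hi
      rw [h2] at a5
      norm_num at a5

include hQ hg hbg hδ hδg hn in
/-- **(Z1)** The corner of the special point on the exterior face. -/
theorem z1_crn {x : Fin l × Fin (Q.m + 1)} (h : Spc l Q bc x) :
    crn (frows θ β p Q n ⌊δ * n⌋₊ bc x) (ex (pdir p x.1)) = yO p n Q bc x.1 := by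
  have hrb := rb_of (p := p) hQ hg hδ hδg hn x.1.2 (j := x.2) (by omega)
  obtain ⟨m1, m2, m3, m4⟩ := spc_ends (p := p) hQ hg hbg hδ hδg hn h
  have hgn : 0 ≤ g * n := by linarith [hrb.hn, hrb.gn]
  have hsj : sW p n Q ⌊δ * n⌋₊ x.1 x.2 ≤ jpos n (tB n Q) bc x.1 := by
    have : (sW p n Q ⌊δ * n⌋₊ x.1 x.2 : ℝ) ≤ jpos n (tB n Q) bc x.1 := by linarith
    exact_mod_cast this
  have hje : jpos n (tB n Q) bc x.1 ≤ eW p n Q ⌊δ * n⌋₊ x.1 x.2 := by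
    have : (jpos n (tB n Q) bc x.1 : ℝ) ≤ eW p n Q ⌊δ * n⌋₊ x.1 x.2 := by linarith
    exact_mod_cast this
  have e1 : (frows θ β p Q n ⌊δ * n⌋₊ bc x) = frow θ β p Q n ⌊δ * n⌋₊ bc x.1 x.2 := rfl
  rw [e1, frow_eq, srow_crn _ _ _ _ hsj hje]
  rfl

/-- The orientation of the rows. -/
theorem frow_o {d : ℕ} (x : Fin l × Fin (Q.m + 1)) :
    (frows θ β p Q n d bc x).o = true ↔ pdir p x.1 = 0 ∨ pdir p x.1 = 2 := by
  have e1 : (frows θ β p Q n d bc x) = frow θ β p Q n d bc x.1 x.2 := rfl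
  rw [e1, frow_eq]
  exact (srow_tj _ _ _ _ _ _ _).2.2.2

/-! ### Z2 -/

/-- The kinds of special points: (1) zero junction, (2) growing junction, (3) base point. -/
def K1 (θ : ℝ) (r : Row) : Prop := |r.j| = (Real.pi - θ) / 2 ∧ r.η = -1

def K2 (θ : ℝ) (r : Row) : Prop := |r.j| = (Real.pi - 3 * θ) / 2 ∧ r.η = -1

def K3 (θ : ℝ) (r : Row) : Prop := |r.j| = θ ∧ r.η = 1

include hQ in
theorem exists_part {i : ℕ} {t : ℝ} (h0 : 0 < t) (h1 : t < 1) (hne : ∀ j, Q.θ i j ≠ t) :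
    ∃ j : Fin (Q.m + 1), (Q.θ i j < t ∧ t < Q.θ i (j + 1)) ∧
      ∀ j' : Fin (Q.m + 1), Q.θ i j' < t → t < Q.θ i (j' + 1) → j' = j := by
  classical
  have hex : ∃ j, t < Q.θ i (j + 1) := ⟨Q.m, by rw [hQ.one]; exact h1⟩
  have hm : Nat.find hex ≤ Q.m := Nat.find_min' hex (by rw [hQ.one]; exact h1)
  have hs := Nat.find_spec hex
  have hlo : Q.θ i (Nat.find hex) < t := by
    rcases Nat.eq_zero_or_pos (Nat.find hex) with h | h
    · rw [h, hQ.zero]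
      exact h0
    · have h2 := Nat.find_min hex (m := Nat.find hex - 1) (by omega)
      rw [Nat.sub_add_cancel h] at h2
      push Not at h2
      exact lt_of_le_of_ne h2 (hne _)
  refine ⟨⟨Nat.find hex, by omega⟩, ⟨hlo, hs⟩, ?_⟩
  intro j' a1 a2
  apply Fin.ext
  show (j' : ℕ) = Nat.find hex
  rcases lt_trichotomy (j' : ℕ) (Nat.find hex) with h | h | h
  · have h3 := H199.marks_mono hQ i (show (j' : ℕ) + 1 ≤ Nat.find hex by omega) (by omega)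
    linarith
  · exact h
  · have h3 := H199.marks_mono hQ i (show Nat.find hex + 1 ≤ (j' : ℕ) by omega) (by omega)
    linarith

include hQ in
/-- Free and wired boundary conditions: one row with a special point. -/
theorem spc_fw (hl : 0 < l) (h : bc = .free ∨ bc = .wired) : ∃ x₀ : Fin l × Fin (Q.m + 1),
    (x₀.1 : ℕ) = 0 ∧ ∀ x, Spc l Q bc x ↔ x = x₀ := by
  obtain ⟨j, ⟨h1, h2⟩, h3⟩ := exists_part hQ (i := 0) hQ.tp0 hQ.tp1 hQ.tpne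
  have e0 : tS Q bc 0 = Q.tp := by unfold tS; rw [if_pos rfl]
  refine ⟨(⟨0, hl⟩, j), rfl, fun x => ?_⟩
  constructor
  · rintro ⟨h4, h5, h6⟩
    have hi : (x.1 : ℕ) = 0 := by
      rcases h4 with h4 | ⟨ta, h4⟩
      · exact h4
      · rcases h with h | h <;> rw [h] at h4 <;> cases h4
    rw [hi, e0] at h5 h6
    exact Prod.ext (Fin.ext hi) (h3 x.2 h5 h6)
  · rintro rfl
    refine ⟨Or.inl rfl, ?_, ?_⟩
    · show Q.θ 0 j < tS Q bc 0
      rw [e0]; exact h1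
    · show tS Q bc 0 < Q.θ 0 (j + 1)
      rw [e0]; exact h2

include hQ in
/-- Dobrushin boundary conditions: two rows with a special point. -/
theorem spc_dob {ia : ℕ} {ta : ℝ} (hb : (Bc.dob ia ta).Ok l Q) :
    ∃ x₀ x₁ : Fin l × Fin (Q.m + 1), (x₀.1 : ℕ) = 0 ∧ (x₁.1 : ℕ) = ia ∧ x₀ ≠ x₁ ∧
      ∀ x, Spc l Q (.dob ia ta) x ↔ x = x₀ ∨ x = x₁ := by
  obtain ⟨b1, b2, b3, b4, b5⟩ := hb
  obtain ⟨j, ⟨h1, h2⟩, h3⟩ := exists_part hQ (i := 0) hQ.tp0 hQ.tp1 hQ.tpne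
  obtain ⟨k, ⟨k1, k2⟩, k3⟩ := exists_part hQ (i := ia) b3 b4 b5
  have e0 : tS Q (.dob ia ta) 0 = Q.tp := by unfold tS; rw [if_pos rfl]
  have e1 : tS Q (.dob ia ta) ia = ta := by unfold tS; rw [if_neg (by omega)]
  refine ⟨(⟨0, by omega⟩, j), (⟨ia, b2⟩, k), rfl, rfl, fun h => ?_, fun x => ?_⟩
  · have h4 := congrArg (fun x : Fin l × Fin (Q.m + 1) => (x.1 : ℕ)) h
    have h5 : (0 : ℕ) = ia := h4
    omega
  constructor
  · rintro ⟨h4, h5, h6⟩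
    rcases h4 with h4 | ⟨ta', h4⟩
    · rw [h4, e0] at h5 h6
      exact Or.inl (Prod.ext (Fin.ext h4) (h3 x.2 h5 h6))
    · injection h4 with h7 h8
      rw [← h7, e1] at h5 h6
      exact Or.inr (Prod.ext (Fin.ext h7.symm) (k3 x.2 h5 h6))
  · rintro (rfl | rfl)
    · refine ⟨Or.inl rfl, ?_, ?_⟩
      · show Q.θ 0 j < tS Q _ 0
        rw [e0]; exact h1
      · show tS Q _ 0 < Q.θ 0 (j + 1)
        rw [e0]; exact h2
    · refine ⟨Or.inr ⟨ta, rfl⟩, ?_, ?_⟩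
      · show Q.θ ia k < tS Q _ ia
        rw [e1]; exact k1
      · show tS Q _ ia < Q.θ ia (k + 1)
        rw [e1]; exact k2

include hp hD hQ hb hg hbg hδ hδg hn hθ in
/-- **(Z2)** Free and wired boundary conditions. -/
theorem z2_fw {x : Fin l × Fin (Q.m + 1)} (h : Spc l Q bc x) (hbc : bc = .free ∨ bc = .wired) :
    K3 θ (frows θ β p Q n ⌊δ * n⌋₊ bc x) ∧
    tj (frows θ β p Q n ⌊δ * n⌋₊ bc x) (ex (pdir p x.1)) *
      (frows θ β p Q n ⌊δ * n⌋₊ bc x).j < 0 := by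
  have hi : (x.1 : ℕ) = 0 := by
    rcases h.1 with h4 | ⟨ta, h4⟩
    · exact h4
    · rcases hbc with h' | h' <;> rw [h'] at h4 <;> cases h4
  obtain ⟨a1, a2, a3⟩ :=
    (base_val (θ := θ) (β := β) hQ hb hg hbg hδ hδg hn hp hD h hi).1 hbc
  rw [abs_of_pos hθ] at a2
  exact ⟨⟨a2, a3⟩, by rw [a1]; linarith⟩

include hp hD hQ hb hg hbg hδ hδg hn hθ hθ' in
/-- **(Z2)** Dobrushin boundary conditions. -/
theorem z2_db {x : Fin l × Fin (Q.m + 1)} (h : Spc l Q bc x) {ia : ℕ} {ta : ℝ}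
    (hbc : bc = .dob ia ta) :
    (β = (θ - Real.pi) / 2 → ((x.1 : ℕ) = 0 → K2 θ (frows θ β p Q n ⌊δ * n⌋₊ bc x)) ∧
      ((x.1 : ℕ) ≠ 0 → K1 θ (frows θ β p Q n ⌊δ * n⌋₊ bc x) ∧
        tj (frows θ β p Q n ⌊δ * n⌋₊ bc x) (ex (pdir p x.1)) *
          (frows θ β p Q n ⌊δ * n⌋₊ bc x).j < 0)) ∧
    (β = (Real.pi - 3 * θ) / 2 →
      ((x.1 : ℕ) = 0 → K1 θ (frows θ β p Q n ⌊δ * n⌋₊ bc x) ∧
        tj (frows θ β p Q n ⌊δ * n⌋₊ bc x) (ex (pdir p x.1)) *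
          (frows θ β p Q n ⌊δ * n⌋₊ bc x).j < 0) ∧
      ((x.1 : ℕ) ≠ 0 → K2 θ (frows θ β p Q n ⌊δ * n⌋₊ bc x))) := by
  have A := fun hi : (x.1 : ℕ) = 0 =>
    (base_val (θ := θ) (β := β) hQ hb hg hbg hδ hδg hn hp hD h hi).2 ia ta hbc
  have B := fun hi : (x.1 : ℕ) ≠ 0 =>
    jun_val (θ := θ) (β := β) hQ hb hg hbg hδ hδg hn hp hD h hi
  constructor
  · intro hβ
    constructor
    · intro hi
      obtain ⟨a1, a2, a3⟩ := A hi
      refine ⟨?_, a3⟩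
      rw [a2, hβ, abs_of_nonpos (by linarith)]
      ring
    · intro hi
      obtain ⟨a1, a2, a3⟩ := B hi
      refine ⟨⟨?_, a3⟩, by rw [a1, hβ]; linarith⟩
      rw [a2, hβ, abs_of_nonpos (by linarith)]
      ring
  · intro hβ
    constructor
    · intro hi
      obtain ⟨a1, a2, a3⟩ := A hi
      refine ⟨⟨?_, a3⟩, by rw [a1, hβ]; linarith⟩
      rw [a2, hβ, abs_of_nonneg (by linarith)]
      ring
    · intro hi
      obtain ⟨a1, a2, a3⟩ := B hi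
      refine ⟨?_, a3⟩
      rw [a2, hβ, abs_of_nonneg (by linarith)]

include hp hD hQ hb hg hbg hδ hδg hn hθ hθ' hβ in
/-- **(Z2)** The kinds of the special points; at the kinds (1) and (3) the exterior face is the one
with the factor `0`. -/
theorem z2 {x : Fin l × Fin (Q.m + 1)} (h : Spc l Q bc x) :
    K2 θ (frows θ β p Q n ⌊δ * n⌋₊ bc x) ∨
    ((K1 θ (frows θ β p Q n ⌊δ * n⌋₊ bc x) ∨ K3 θ (frows θ β p Q n ⌊δ * n⌋₊ bc x)) ∧
      tj (frows θ β p Q n ⌊δ * n⌋₊ bc x) (ex (pdir p x.1)) *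
        (frows θ β p Q n ⌊δ * n⌋₊ bc x).j < 0) := by
  have F : ∀ hbc : bc = .free ∨ bc = .wired, _ := fun hbc =>
    z2_fw (θ := θ) (β := β) hQ hb hg hbg hδ hδg hn hp hD hθ h hbc
  have D : ∀ (ia : ℕ) (ta : ℝ), bc = .dob ia ta → _ := fun ia ta hbc =>
    z2_db (θ := θ) (β := β) hQ hb hg hbg hδ hδg hn hp hD hθ hθ' h hbc
  have key : (bc = .free ∨ bc = .wired) ∨ ∃ (ia : ℕ) (ta : ℝ), bc = .dob ia ta := by
    cases bc with
    | free => exact Or.inl (Or.inl rfl)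
    | wired => exact Or.inl (Or.inr rfl)
    | dob ia ta => exact Or.inr ⟨ia, ta, rfl⟩
  rcases key with hbc | ⟨ia, ta, hbc⟩
  · obtain ⟨a1, a2⟩ := F hbc
    exact Or.inr ⟨Or.inr a1, a2⟩
  · obtain ⟨d1, d2⟩ := D ia ta hbc
    by_cases hi : (x.1 : ℕ) = 0
    · rcases hβ with h1 | h1
      · exact Or.inl ((d1 h1).1 hi)
      · obtain ⟨a1, a2⟩ := (d2 h1).1 hi
        exact Or.inr ⟨Or.inl a1, a2⟩
    · rcases hβ with h1 | h1
      · obtain ⟨a1, a2⟩ := (d1 h1).2 hi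
        exact Or.inr ⟨Or.inl a1, a2⟩
      · exact Or.inl ((d2 h1).2 hi)

include hp hD hQ hg hθ hθ' hβ in
/-- **(Z2)** Dobrushin boundary conditions: the row `xa` has the kind (1), the row `xb` the kind (2),
the other rows are plain. -/
theorem z2_dob {ia : ℕ} {ta : ℝ} (hb : (Bc.dob ia ta).Ok l Q) (hbg : BGap l Q g (.dob ia ta)) :
    ∃ xa xb : Fin l × Fin (Q.m + 1), xa ≠ xb ∧ xa.1 ≠ xb.1 ∧
      (∀ x, Spc l Q (.dob ia ta) x ↔ x = xa ∨ x = xb) ∧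
      ∀ (δ : ℝ) (n : ℕ), 0 < δ → 4 * δ ≤ g → 16 ≤ δ * n →
        K1 θ (frows θ β p Q n ⌊δ * n⌋₊ (.dob ia ta) xa) ∧
        tj (frows θ β p Q n ⌊δ * n⌋₊ (.dob ia ta) xa) (ex (pdir p xa.1)) *
          (frows θ β p Q n ⌊δ * n⌋₊ (.dob ia ta) xa).j < 0 ∧
        K2 θ (frows θ β p Q n ⌊δ * n⌋₊ (.dob ia ta) xb) := by
  obtain ⟨x₀, x₁, h0, h1, hne, hiff⟩ := spc_dob hQ hb
  have h1' : (x₁.1 : ℕ) ≠ 0 := by rw [h1]; exact hb.1.ne'
  have hne' : x₀.1 ≠ x₁.1 := fun h => h1' (by rw [← h]; exact h0)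
  rcases hβ with hβ | hβ
  · refine ⟨x₁, x₀, hne.symm, hne'.symm, fun x => (hiff x).trans or_comm, ?_⟩
    intro δ n hδ hδg hn
    have d0 := z2_db (θ := θ) (β := β) hQ hb hg hbg hδ hδg hn hp hD hθ hθ'
      ((hiff x₀).2 (Or.inl rfl)) rfl
    have d1 := z2_db (θ := θ) (β := β) hQ hb hg hbg hδ hδg hn hp hD hθ hθ'
      ((hiff x₁).2 (Or.inr rfl)) rfl
    obtain ⟨a1, a2⟩ := (d1.1 hβ).2 h1'
    exact ⟨a1, a2, (d0.1 hβ).1 h0⟩
  · refine ⟨x₀, x₁, hne, hne', hiff, ?_⟩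
    intro δ n hδ hδg hn
    have d0 := z2_db (θ := θ) (β := β) hQ hb hg hbg hδ hδg hn hp hD hθ hθ'
      ((hiff x₀).2 (Or.inl rfl)) rfl
    have d1 := z2_db (θ := θ) (β := β) hQ hb hg hbg hδ hδg hn hp hD hθ hθ'
      ((hiff x₁).2 (Or.inr rfl)) rfl
    obtain ⟨a1, a2⟩ := (d0.2 hβ).1 h0
    exact ⟨a1, a2, (d1.2 hβ).2 h1'⟩

end

end Vale.Agent.P167.H662.Z
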